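import Vale.Agent.P186.Main

namespace Vale.Agent.Results.P186.NotResFinite

open SimpleGraph

/-- `G` is word-hyperbolic: for some finite generating set `S` and some `δ`, every geodesic
triangle in the Cayley graph of `G` with respect to `S` is `δ`-thin. A side is an edge path
whose length is the graph distance of its endpoints; the three sides play symmetric roles. -/
def IsWordHyperbolic (G : Type) [Group G] : Prop :=
  ∃ (S : Finset G) (δ : ℕ), Subgroup.closure (S : Set G) = ⊤ ∧
    ∀ (x y z : G) (p : (mulCayley (S : Set G)).Walk x y) (q : (mulCayley (S : Set G)).Walk y z)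
      (r : (mulCayley (S : Set G)).Walk z x),
      p.length = (mulCayley (S : Set G)).dist x y →
      q.length = (mulCayley (S : Set G)).dist y z →
      r.length = (mulCayley (S : Set G)).dist z x →
      ∀ u ∈ p.support, ∃ v, (v ∈ q.support ∨ v ∈ r.support) ∧
        (mulCayley (S : Set G)).dist u v ≤ δ

/-- There is a word-hyperbolic group that is not residually finite. -/
theorem result : ∃ (G : Type) (_ : Group G),
    IsWordHyperbolic G ∧ ¬ Group.ResiduallyFinite G :=
  Vale.Agent.P186.main

end Vale.Agent.Results.P186.NotResFinite
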